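import Vale.Agent.P144L.D.Chn
import Vale.Agent.P144E.An1.Hol

/-!
A pair is close to a harmonic function.
-/

namespace Vale.Agent.P144L.D

open Finset Vale.Agent.P144Z

theorem lap_add (f g : ℤ × ℤ → ℝ) (v : ℤ × ℤ) :
    B1b.lap (fun x => f x + g x) v = B1b.lap f v + B1b.lap g v := by
  simp only [B1b.lap, Fin.sum_univ_four]
  ring

theorem lap_lin (f g : ℤ × ℤ → ℝ) (a b c : ℝ) (v : ℤ × ℤ) :
    B1b.lap (fun x => a * f x + b * g x + c) v = a * B1b.lap f v + b * B1b.lap g v := by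
  simp only [B1b.lap, Fin.sum_univ_four]
  ring

/-- The Dirichlet problem. -/
theorem dir (Ω : Set (ℤ × ℤ)) (hΩ : Ω.Finite) (w : ℤ × ℤ → ℝ) :
    ∃ h : ℤ × ℤ → ℝ, (∀ v ∉ Ω, h v = w v) ∧ ∀ v ∈ Ω, B1b.lap h v = 0 := by
  classical
  have := hΩ.to_subtype
  let E : (Ω → ℝ) →ₗ[ℝ] (ℤ × ℤ → ℝ) :=
    { toFun := fun g v => if h : v ∈ Ω then g ⟨v, h⟩ else 0
      map_add' := fun g g' => by
        ext v
        by_cases h : v ∈ Ω <;> simp [h]
      map_smul' := fun t g => by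
        ext v
        by_cases h : v ∈ Ω <;> simp [h] }
  let L : (ℤ × ℤ → ℝ) →ₗ[ℝ] (Ω → ℝ) :=
    { toFun := fun f v => B1b.lap f v
      map_add' := fun f g => by
        ext v
        exact lap_add f g v
      map_smul' := fun t f => by
        ext v
        simp only [B1b.lap, Pi.smul_apply, smul_eq_mul, RingHom.id_apply, Fin.sum_univ_four]
        ring }
  have E0 : ∀ g, ∀ v ∉ Ω, E g v = 0 := fun g v hv => dif_neg hv
  have le : ∀ g, (L ∘ₗ E) g = 0 → ∀ v : Ω, g v ≤ 0 := fun g hg v => by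
    have := B1b.maxp Ω hΩ (E g) (fun x hx => (congrFun hg ⟨x, hx⟩).ge)
      (fun x _ a ha => (E0 g _ ha).le) v v.2
    rwa [show E g v = g v from dif_pos v.2] at this
  have inj : Function.Injective (L ∘ₗ E) := (injective_iff_map_eq_zero _).2 fun g hg => by
    ext v
    have := le (-g) (by rw [map_neg, hg, neg_zero]) v
    exact le_antisymm (le g hg v) (by simpa using this)
  obtain ⟨g, hg⟩ := LinearMap.injective_iff_surjective.1 inj (-L w)
  refine ⟨fun v => w v + E g v, fun v hv => by simp only [E0 g v hv, add_zero], fun v hv => ?_⟩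
  have : B1b.lap (E g) v = -B1b.lap w v := congrFun hg ⟨v, hv⟩
  rw [lap_add, this, add_neg_cancel]

/-- Outer squares below an outer site. -/
theorem below {pr : ℤ × ℤ → Fin 4 → Prop} {out : ℤ × ℤ → Prop} {ν : ℂ} (h : Md pr out ν)
    {z : ℤ × ℤ} (hz : out z) (s : ℕ) : ∃ x, zd x 0 ≤ 415 * (s + 1) ∧
      ∀ v, zd v x ≤ s → out (z + v) ∧ ∀ a, ¬ pr (z + v) a := by
  have s0 : (0 : ℝ) ≤ s := Nat.cast_nonneg s
  have T1 := nr_fl ν (414 * (s + 1))
  refine ⟨-fl ν (414 * (s + 1)), ?_, fun v hv => ?_⟩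
  · have := T1.zd_le h.ou.nrm (by positivity) (n := 415 * (s + 1)) (by push_cast; linarith)
    simpa [zd] using this
  · have a1 := (T1.sub (v := 0) (n := 0) (by simp [zd]) hv).dp h.ou.nrm (by push_cast; linarith)
    refine ⟨h.ou.up _ _ (dp_cn a1) (by simpa using hz), fun a => ?_⟩
    simpa using h.lo z _ a hz a1

theorem appL : AppL := by
  obtain ⟨C, β, hC, b0, b1, H⟩ := holS 415
  refine ⟨4 * C, β, by linarith, b0, fun pr out ν hm ρ d u w S μ hp hd hdρ hμ hS hg => ?_⟩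
  have hS0 : 0 ≤ S := (abs_nonneg _).trans (hS 0 (by simp [zd])).1
  have fin : {v : ℤ × ℤ | zd v 0 + 1 ≤ ρ ∧ ¬ out v}.Finite :=
    (B1b.box_finite ρ).subset fun v hv => Nat.le_of_succ_le hv.1
  obtain ⟨h, h1, h2⟩ := dir _ fin w
  have mx : ∀ a b c : ℝ, (∀ v, zd v 0 ≤ ρ → (a + b) * w v + c ≤ 0) → b ≤ 0 →
      ∀ v ∈ {v : ℤ × ℤ | zd v 0 + 1 ≤ ρ ∧ ¬ out v}, a * h v + b * w v + c ≤ 0 :=
    fun a b c k1 k2 => B1b.maxp _ fin _ (fun v hv => by
      rw [lap_lin, h2 v hv, mul_zero, zero_add]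
      exact mul_nonneg_of_nonpos_of_nonpos k2 (hp.sup v (by have := hv.1; omega) hv.2))
      fun v hv e he => by
        have := k1 (v + st4 e) ((B1b.zd_st4 v e).trans hv.1)
        rw [h1 _ he]
        linarith
  have hw : ∀ v, h v ≤ w v := fun v => by
    by_cases hv : v ∈ {v : ℤ × ℤ | zd v 0 + 1 ≤ ρ ∧ ¬ out v}
    · linarith [mx 1 (-1) 0 (fun v _ => by simp) (by norm_num) v hv]
    · exact (h1 v hv).le
  have hb : ∀ v, zd v 0 ≤ 2 * ρ → |h v| ≤ S := fun v hv' => by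
    by_cases hv : v ∈ {v : ℤ × ℤ | zd v 0 + 1 ≤ ρ ∧ ¬ out v}
    · have a1 := mx 1 0 (-S) (fun v hv => by linarith [(abs_le.1 (hS v (by omega)).2).2]) le_rfl v hv
      have a2 := mx (-1) 0 (-S) (fun v hv => by linarith [(abs_le.1 (hS v (by omega)).2).1])
        le_rfl v hv
      exact abs_le.2 ⟨by linarith, by linarith⟩
    · rw [h1 v hv]
      exact (hS v hv').2
  have hp' : IsPair (2 * ρ) u h pr out :=
    ⟨fun v k hv => (hw _).trans (hp.le v k hv), fun v hv ho => by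
      rw [h1 v fun k => k.2 ho]
      exact hp.zero v hv ho, hp.rem, hp.symm, hp.sub, fun v hv ho => by
      by_cases k : v ∈ {v : ℤ × ℤ | zd v 0 + 1 ≤ ρ ∧ ¬ out v}
      · exact (h2 v k).le
      · refine le_trans (Finset.sum_le_sum fun a _ => ?_) (hp.sup v hv ho)
        rw [h1 v k]
        linarith [hw (v + st4 a)]⟩
  have ρ0 : (0 : ℝ) < ρ := by exact_mod_cast (by omega : 0 < ρ)
  have d0 : (0 : ℝ) < d := by exact_mod_cast hd
  have q0 : 0 ≤ ((d : ℝ) / ρ) ^ β := by positivity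
  have bad : ∀ x, zd x 0 ≤ ρ → ¬ In out d x → u x - h x ≤ 4 * C * S * ((d : ℝ) / ρ) ^ β := by
    intro x hx hi
    rcases le_or_gt (2 * d) ρ with k | k
    · simp only [In, not_forall, not_not] at hi
      obtain ⟨z, z1, z2⟩ := hi
      have z3 : zd z 0 + (ρ - d) ≤ 2 * ρ := by
        have := GeoA.zd_tri z x 0
        omega
      have a1 := H (ρ - d) _ _ _ _ (hp'.shift z z3) S (fun s _ => below hm z2 s)
        (fun v hv => by
          have := B1a1.zd_add_le z v
          exact ⟨(hS _ (by omega)).1, hb _ (by omega)⟩) d hd (x - z)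
        (by rw [GeoA.zd_comm] at z1; simpa [zd] using z1) (by omega)
      simp only [add_sub_cancel] at a1
      have k1 : (2 : ℝ) * d ≤ ρ := by exact_mod_cast k
      have a2 : (d : ℝ) / (ρ - d : ℕ) ≤ 2 * (d / ρ) := by
        rw [Nat.cast_sub hdρ, ← mul_div_assoc, div_le_div_iff₀ (by linarith) ρ0]
        nlinarith
      have a3 : ((d : ℝ) / (ρ - d : ℕ)) ^ β ≤ 2 * ((d : ℝ) / ρ) ^ β := by
        refine (Real.rpow_le_rpow (by positivity) a2 b0.le).trans ?_
        rw [Real.mul_rpow (by norm_num) (by positivity)]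
        refine mul_le_mul_of_nonneg_right ?_ q0
        simpa using Real.rpow_le_rpow_of_exponent_le (x := 2) (by norm_num) (show β ≤ 1 by linarith)
      have a4 := mul_le_mul_of_nonneg_left a3 (show 0 ≤ C * S by positivity)
      linarith [(abs_le.1 a1.1).2, (abs_le.1 a1.2).1]
    · have k1 : (ρ : ℝ) ≤ 2 * d := by exact_mod_cast k.le
      have a1 : 1 / 2 ≤ (d : ℝ) / ρ := by
        rw [div_le_div_iff₀ (by norm_num) ρ0]
        linarith
      have a2 : (d : ℝ) / ρ ≤ ((d : ℝ) / ρ) ^ β := by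
        simpa using Real.rpow_le_rpow_of_exponent_ge (x := (d : ℝ) / ρ) (by positivity)
          ((div_le_one ρ0).2 (by exact_mod_cast hdρ)) (show β ≤ 1 by linarith)
      have a3 := mul_le_mul_of_nonneg_left (a1.trans a2) (show 0 ≤ 4 * C * S by positivity)
      have a4 := mul_le_mul_of_nonneg_right hC hS0
      linarith [(abs_le.1 (hS x (by omega)).1).2, (abs_le.1 (hb x (by omega))).1]
  have q1 : 0 ≤ 4 * C * S * ((d : ℝ) / ρ) ^ β := by positivity
  generalize 4 * C * S * ((d : ℝ) / ρ) ^ β = E at bad q1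
  have edge : ∀ x, zd x 0 ≤ ρ → x ∉ {v : ℤ × ℤ | zd v 0 + 1 ≤ ρ ∧ In out d v} →
      1 * u x + -1 * h x + -(μ + E) ≤ 0 := fun x hx hn => by
    by_cases hi : In out d x
    · have := hg x hx hi
      rw [h1 x fun k => hn ⟨k.1, hi⟩]
      linarith
    · linarith [bad x hx hi]
  have key := B1b.maxp {v : ℤ × ℤ | zd v 0 + 1 ≤ ρ ∧ In out d v}
    ((B1b.box_finite ρ).subset fun v hv => Nat.le_of_succ_le hv.1)
    (fun x => 1 * u x + -1 * h x + -(μ + E)) (fun v hv => by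
      have a1 := hp.sub v (by have := hv.1; omega)
      have a2 : ∀ a, pr v a := fun a => by
        by_contra k
        exact hv.2 _ (le_trans (by fin_cases a <;> simp [zd, cn]) hd) (hp.rem v a k).2
      simp only [GG, a2, if_true] at a1
      rw [lap_lin, h2 v ⟨hv.1, hv.2 v (by rw [zd_self]; omega)⟩, mul_zero, add_zero, one_mul]
      exact a1) fun v hv e he => edge _ ((B1b.zd_st4 v e).trans hv.1) he
  refine ⟨h, ⟨fun x hx ho => hp'.zero x (by omega) ho, fun x hx ho => h2 x ⟨hx, ho⟩⟩,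
    fun v hv => ⟨hb v (by omega), ?_⟩⟩
  have a1 := hp'.le v 0 (by omega)
  rw [B1a1.sub_cn_zero] at a1
  rw [abs_of_nonneg (sub_nonneg.2 a1)]
  by_cases k : v ∈ {v : ℤ × ℤ | zd v 0 + 1 ≤ ρ ∧ In out d v}
  · linarith [key v k]
  · linarith [edge v hv k]

end Vale.Agent.P144L.D
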