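import Vale.Agent.P144L.Defs

/-!
Harnack chains and doubling above a Lipschitz graph.
-/

namespace Vale.Agent.P144L.D

open Finset Vale.Agent.P144Z

variable {ν : ℂ} {out : ℤ × ℤ → Prop}

/-- The vector `c` is within `δ` of `t ν`. -/
def Nr (ν : ℂ) (t δ : ℝ) (c : ℤ × ℤ) : Prop := |c.1 - t * ν.re| ≤ δ ∧ |c.2 - t * ν.im| ≤ δ

theorem re_le (hν : ‖ν‖ = 1) : |ν.re| ≤ 1 ∧ |ν.im| ≤ 1 := by
  have hn := B1b.sq_one hν
  exact ⟨abs_le_of_sq_le_sq (by nlinarith [sq_nonneg ν.im]) zero_le_one,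
    abs_le_of_sq_le_sq (by nlinarith [sq_nonneg ν.re]) zero_le_one⟩

theorem Nr.est (hν : ‖ν‖ = 1) {t δ : ℝ} {c : ℤ × ℤ} (ht0 : 0 ≤ t) (h : Nr ν t δ c) :
    t - 2 * δ ≤ ht ν c ∧ len c ≤ t + 2 * δ := by
  have hn := B1b.sq_one hν
  obtain ⟨n1, n2⟩ := re_le hν
  obtain ⟨h1, h2⟩ := h
  have d0 : 0 ≤ δ := (abs_nonneg _).trans h1
  have e2 : |(c.1 - t * ν.re) * ν.re| ≤ δ * 1 := by
    rw [abs_mul]
    exact mul_le_mul h1 n1 (abs_nonneg _) d0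
  have e3 : |(c.2 - t * ν.im) * ν.im| ≤ δ * 1 := by
    rw [abs_mul]
    exact mul_le_mul h2 n2 (abs_nonneg _) d0
  have e1 : ht ν c = t + ((c.1 - t * ν.re) * ν.re + (c.2 - t * ν.im) * ν.im) := by
    unfold ht
    linear_combination t * hn
  have e4 := sq_le_sq' (abs_le.1 h1).1 (abs_le.1 h1).2
  have e5 := sq_le_sq' (abs_le.1 h2).1 (abs_le.1 h2).2
  rw [abs_le] at e2 e3
  refine ⟨by linarith [e2.1, e3.1], Real.sqrt_le_iff.2 ⟨by positivity, ?_⟩⟩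
  have e6 : (c.1 : ℝ) ^ 2 + (c.2 : ℝ) ^ 2 = t ^ 2 + 2 * t * ((c.1 - t * ν.re) * ν.re +
      (c.2 - t * ν.im) * ν.im) + ((c.1 - t * ν.re) ^ 2 + (c.2 - t * ν.im) ^ 2) := by
    linear_combination t ^ 2 * hn
  have e7 := mul_le_mul_of_nonneg_left (add_le_add e2.2 e3.2) ht0
  nlinarith [sq_nonneg δ]

theorem sq2 : √2 / 2 ≤ (3 / 4 : ℝ) := by
  have : √2 ≤ (3 / 2 : ℝ) := Real.sqrt_le_iff.2 ⟨by norm_num, by norm_num⟩
  linarith

theorem Nr.dp (hν : ‖ν‖ = 1) {t δ : ℝ} {c : ℤ × ℤ} (h : Nr ν t δ c) (hδ : 14 * δ + 400 ≤ t) :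
    Dp ν c := by
  have d0 : 0 ≤ δ := (abs_nonneg _).trans h.1
  obtain ⟨a1, a2⟩ := h.est hν (by linarith)
  have a3 := mul_le_mul_of_nonneg_right sq2 (GeoA.len_nonneg c)
  unfold Dp
  linarith

theorem Nr.cn (hν : ‖ν‖ = 1) {t δ : ℝ} {c : ℤ × ℤ} (h : Nr ν t δ c) (hδ : 14 * δ ≤ t) :
    Cn ν c := by
  have d0 : 0 ≤ δ := (abs_nonneg _).trans h.1
  obtain ⟨a1, a2⟩ := h.est hν (by linarith)
  have a3 := mul_le_mul_of_nonneg_right sq2 (GeoA.len_nonneg c)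
  unfold Cn
  linarith

theorem Nr.nar (hν : ‖ν‖ = 1) {t δ : ℝ} {c : ℤ × ℤ} (h : Nr ν t δ c) (hδ : 38 * δ ≤ t) :
    9 / 10 * len c ≤ ht ν c := by
  have d0 : 0 ≤ δ := (abs_nonneg _).trans h.1
  obtain ⟨a1, a2⟩ := h.est hν (by linarith)
  linarith

theorem dp_cn {c : ℤ × ℤ} (h : Dp ν c) : Cn ν c := by
  unfold Dp at h
  unfold Cn
  linarith

/-- The lattice point near `t ν`. -/
noncomputable def fl (ν : ℂ) (t : ℝ) : ℤ × ℤ := (⌊t * ν.re⌋, ⌊t * ν.im⌋)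

theorem abs_fl (x : ℝ) : |((⌊x⌋ : ℤ) : ℝ) - x| ≤ 1 := by
  have a1 := Int.floor_le x
  have a2 := Int.lt_floor_add_one x
  rw [abs_le]
  constructor <;> linarith

theorem nr_fl (ν : ℂ) (t : ℝ) : Nr ν t 1 (fl ν t) := ⟨abs_fl _, abs_fl _⟩

theorem Nr.zd_le (hν : ‖ν‖ = 1) {t δ : ℝ} {c : ℤ × ℤ} (ht0 : 0 ≤ t) (h : Nr ν t δ c) {n : ℕ}
    (hn : t + δ ≤ n) : zd c 0 ≤ n := by
  obtain ⟨n1, n2⟩ := re_le hν
  have a1 := mul_le_mul_of_nonneg_left n1 ht0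
  have a2 := mul_le_mul_of_nonneg_left n2 ht0
  have a3 : |t * ν.re| = t * |ν.re| := by rw [abs_mul, abs_of_nonneg ht0]
  have a4 : |t * ν.im| = t * |ν.im| := by rw [abs_mul, abs_of_nonneg ht0]
  have b1 := abs_sub_abs_le_abs_sub (c.1 : ℝ) (t * ν.re)
  have b2 := abs_sub_abs_le_abs_sub (c.2 : ℝ) (t * ν.im)
  refine IN1.zd_le_of ?_ ?_ <;> simp only [Prod.fst_zero, Prod.snd_zero, Int.cast_zero, sub_zero]
  · linarith [h.1]
  · linarith [h.2]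

/-- Moving both ends. -/
theorem Nr.sub {t δ : ℝ} {y c v x : ℤ × ℤ} (h : Nr ν t δ c) {n n' : ℕ} (hv : zd v (y + c) ≤ n)
    (hx : zd x y ≤ n') : Nr ν t (δ + n + n') (v - x) := by
  obtain ⟨a1, a2⟩ := IN1.abs_le_of hv
  obtain ⟨a3, a4⟩ := IN1.abs_le_of hx
  obtain ⟨a5, a6⟩ := h
  simp only [Prod.fst_add, Prod.snd_add, Int.cast_add] at a1 a2
  rw [abs_le] at a1 a2 a3 a4 a5 a6
  constructor <;> simp only [Prod.fst_sub, Prod.snd_sub, Int.cast_sub] <;> rw [abs_le] <;>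
    constructor <;> linarith [a1.1, a1.2, a2.1, a2.2, a3.1, a3.2, a4.1, a4.2, a5.1, a5.2, a6.1, a6.2]

theorem inn (ho : Ou out ν) {x v : ℤ × ℤ} (hx : ¬ out x) (h : Cn ν (v - x)) : ¬ out v :=
  fun hv => hx (ho.up x (v - x) h (by rwa [add_sub_cancel]))

theorem zd_self (x : ℤ × ℤ) : zd x x = 0 := by simp [zd]

theorem zd_add (y c : ℤ × ℤ) : zd (y + c) y = zd c 0 := by simp [zd]

/-- The neighbourhood of a segment that goes up from a deep point is inside. -/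
theorem seg (ho : Ou out ν) {x T v : ℤ × ℤ} {d : ℕ} (hx : In out d x) {t δ' δ θ : ℝ}
    (hT : Nr ν t δ' (T - x)) (hδ' : 28 * δ' ≤ t) (t0 : 0 ≤ θ)
    (h1 : |v.1 - (x.1 + θ * (T.1 - x.1))| ≤ δ) (h2 : |v.2 - (x.2 + θ * (T.2 - x.2))| ≤ δ)
    (hd : δ + 30 ≤ d) : ¬ out v := by
  have d0 : 0 ≤ δ' := (abs_nonneg _).trans hT.1
  obtain ⟨n1, n2⟩ := re_le ho.nrm
  obtain ⟨a1, a2⟩ := hT
  simp only [Prod.fst_sub, Prod.snd_sub, Int.cast_sub] at a1 a2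
  have sc : ∀ g r : ℝ, |g - t * r| ≤ δ' → |θ * g - θ * t * r| ≤ θ * δ' := fun g r h => by
    rw [mul_assoc, ← mul_sub, abs_mul, abs_of_nonneg t0]
    exact mul_le_mul_of_nonneg_left h t0
  have b1 := abs_le.1 (sc _ _ a1)
  have b2 := abs_le.1 (sc _ _ a2)
  have b3 := mul_le_mul_of_nonneg_left hδ' t0
  have b4 : 0 ≤ θ * δ' := mul_nonneg t0 d0
  rw [abs_le] at h1 h2
  rcases le_total (θ * t) 28 with h | h
  · have c0 : 0 ≤ θ * t := by linarith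
    have c1 : |θ * t * ν.re| ≤ 28 * 1 := by
      rw [abs_mul, abs_of_nonneg c0]
      exact mul_le_mul h n1 (abs_nonneg _) (by norm_num)
    have c2 : |θ * t * ν.im| ≤ 28 * 1 := by
      rw [abs_mul, abs_of_nonneg c0]
      exact mul_le_mul h n2 (abs_nonneg _) (by norm_num)
    rw [abs_le] at c1 c2
    refine hx v (IN1.zd_le_of ?_ ?_) <;> rw [abs_lt] <;> constructor <;>
      linarith [h1.1, h1.2, h2.1, h2.2, b1.1, b1.2, b2.1, b2.2, c1.1, c1.2, c2.1, c2.2]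
  · have c1 := abs_le.1 (abs_fl (θ * (T.1 - x.1)))
    have c2 := abs_le.1 (abs_fl (θ * (T.2 - x.2)))
    have c3 : Nr ν (θ * t) (θ * δ' + 1) (⌊θ * (T.1 - x.1)⌋, ⌊θ * (T.2 - x.2)⌋) := by
      constructor <;> rw [abs_le] <;> constructor <;>
        linarith [b1.1, b1.2, b2.1, b2.2, c1.1, c1.2, c2.1, c2.2]
    refine inn ho (x := v - (⌊θ * (T.1 - x.1)⌋, ⌊θ * (T.2 - x.2)⌋)) (hx _ (IN1.zd_le_of ?_ ?_)) ?_
    · simp only [Prod.fst_sub, Int.cast_sub]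
      rw [abs_lt]
      constructor <;> linarith [h1.1, h1.2, c1.1, c1.2]
    · simp only [Prod.snd_sub, Int.cast_sub]
      rw [abs_lt]
      constructor <;> linarith [h2.1, h2.2, c2.1, c2.2]
    · rw [sub_sub_cancel]
      exact c3.cn ho.nrm (by linarith)

theorem seg_zd {x T y v : ℤ × ℤ} {n n' : ℕ} {δ θ : ℝ} (hx : zd x y ≤ n) (hT : zd T y ≤ n)
    (t0 : 0 ≤ θ) (t1 : θ ≤ 1) (h1 : |v.1 - (x.1 + θ * (T.1 - x.1))| ≤ δ)
    (h2 : |v.2 - (x.2 + θ * (T.2 - x.2))| ≤ δ) (hn : n + δ ≤ n') : zd v y ≤ n' := by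
  obtain ⟨a1, a2⟩ := IN1.abs_le_of hx
  obtain ⟨a3, a4⟩ := IN1.abs_le_of hT
  have cv : ∀ a b c : ℝ, |a - c| ≤ n → |b - c| ≤ n → |a + θ * (b - a) - c| ≤ n :=
    fun a b c ha hb => by
      rw [abs_le] at ha hb ⊢
      constructor <;> nlinarith [ha.1, ha.2, hb.1, hb.2]
  have b1 := abs_le.1 (cv _ _ _ a1 a3)
  have b2 := abs_le.1 (cv _ _ _ a2 a4)
  rw [abs_le] at h1 h2
  refine IN1.zd_le_of ?_ ?_ <;> rw [abs_lt] <;> constructor <;>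
    linarith [h1.1, h1.2, h2.1, h2.2, b1.1, b1.2, b2.1, b2.2]

theorem chnL : ChnL := by
  refine ⟨70, by norm_num, fun n hn => ?_⟩
  obtain ⟨c, c0, c1, hc⟩ := harn_seg (700 * n)
  refine ⟨c * c, by positivity, fun out ν ho y x x' d f A hd hA hx hx' ix ix' hf h1 => ?_⟩
  obtain ⟨m, hm⟩ : ∃ m, m = d / 10 := ⟨_, rfl⟩
  obtain ⟨k, hk⟩ : ∃ k, k = n * d := ⟨_, rfl⟩
  have k1 : d ≤ k := hk ▸ Nat.le_mul_of_pos_left d hn
  have k2 : 62 * k ≤ 700 * n * m := by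
    have : n * (62 * d) ≤ n * (700 * m) := Nat.mul_le_mul_left n (by omega)
    rw [hk]
    nlinarith
  rw [← hk] at hx hx' hf
  have k3 : (d : ℝ) ≤ k := by exact_mod_cast k1
  have k4 : (100 : ℝ) ≤ d := by exact_mod_cast hd
  have k5 : (10 : ℝ) * m ≤ d := by exact_mod_cast (show 10 * m ≤ d by omega)
  have T1 := nr_fl ν (60 * k)
  have T2 : zd (y + fl ν (60 * k)) y ≤ 61 * k := by
    rw [zd_add]
    exact T1.zd_le ho.nrm (by positivity) (by push_cast; linarith)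
  have T3 : ∀ x, zd x y ≤ k → Nr ν (60 * k) (1 + (0 : ℕ) + k) (y + fl ν (60 * k) - x) :=
    fun x hx => T1.sub (zd_self _).le hx
  generalize y + fl ν (60 * k) = T at T2 T3
  have good : ∀ x, zd x y ≤ k → In out d x → ∀ (v : ℤ × ℤ) (θ : ℝ), 0 ≤ θ → θ ≤ 1 →
      |v.1 - (x.1 + θ * (T.1 - x.1))| ≤ 3 * m + 1 → |v.2 - (x.2 + θ * (T.2 - x.2))| ≤ 3 * m + 1 →
      0 ≤ f v ∧ SupH f v := fun x hx ix v θ t0 t1 a1 a2 =>
    hf v (seg_zd (n := 61 * k) (by omega) T2 t0 t1 a1 a2 (by push_cast; linarith))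
      (seg ho ix (T3 x hx) (by push_cast; linarith) t0 a1 a2 (by linarith))
  have tri : ∀ x, zd x y ≤ k → zd T x ≤ 700 * n * m ∧ zd x T ≤ 700 * n * m := fun x hx => by
    have := GeoA.zd_tri T y x
    have := GeoA.zd_comm y x
    have := GeoA.zd_comm T x
    omega
  have s1 := hc f x T m A hA (by omega) (tri x hx).1 (good x hx ix) fun v hv => h1 v (by omega)
  have s2 := hc f T x' m (c * A) (by positivity) (by omega) (tri x' hx').2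
    (fun v θ t0 t1 a1 a2 => good x' hx' ix' v (1 - θ) (by linarith) (by linarith)
      (by convert a1 using 3; ring) (by convert a2 using 3; ring)) s1 x' (by rw [zd_self]; omega)
  rwa [mul_assoc]

theorem dblL : DblL := by
  obtain ⟨Q, hQ, H⟩ := chnL
  refine ⟨121 * Q + 1, by omega, fun n hn => ?_⟩
  obtain ⟨c, c0, hc⟩ := H (121 * n) (by omega)
  refine ⟨c, c0, fun out ν ho y x x' d ρ ω hd hρ hω _ hx hx' ix' => ?_⟩
  obtain ⟨k, hk⟩ : ∃ k, k = n * d := ⟨_, rfl⟩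
  have k1 : d ≤ k := hk ▸ Nat.le_mul_of_pos_left d hn
  have k2 : 121 * n * d = 121 * k := by rw [hk]; ring
  rw [← hk] at hx hx' hρ
  have k3 : (d : ℝ) ≤ k := by exact_mod_cast k1
  have k4 : (100 : ℝ) ≤ d := by exact_mod_cast hd
  have T1 := nr_fl ν (120 * k)
  have T2 : zd (y + fl ν (120 * k)) y ≤ 121 * k := by
    rw [zd_add]
    exact T1.zd_le ho.nrm (by positivity) (by push_cast; linarith)
  refine hc out ν ho y (y + fl ν (120 * k)) x' d ω (ω x) hd (hω.nn x) (k2 ▸ T2) (by omega)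
    (fun v hv => inn ho (ix' x' (by rw [zd_self]; omega))
      ((T1.sub hv hx').cn ho.nrm (by linarith))) ix' (fun v hv h => ⟨hω.nn v, ?_⟩) fun v hv => ?_
  · refine (hω.har.harm v ?_ h).le
    rw [k2] at hv
    have : (121 * Q + 1) * k = Q * (121 * k) + k := by ring
    omega
  · have := hω.mono x (v - x) ((T1.sub (n := d) (by omega) hx).nar ho.nrm (by linarith))
    rwa [add_sub_cancel] at this

end Vale.Agent.P144L.D
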