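import Vale.Agent.P144L.D.Chn
import Vale.Agent.P144E.An1.Hol

/-!
A deep point where the slope of a monotone harmonic function is large.
-/

namespace Vale.Agent.P144L.D

open Finset Vale.Agent.P144Z

theorem one_step {G : ℤ → ℝ} {E : ℝ} (hE : 0 ≤ E) {i i' : ℤ} (h : |(i' : ℝ) - i| < 2)
    (h1 : |G (i + 1) - G i| ≤ E) (h2 : |G (i' + 1) - G i'| ≤ E) : |G i' - G i| ≤ E := by
  have a : |i' - i| < 2 := by exact_mod_cast h
  rw [abs_lt] at a
  rcases (show i' = i ∨ i' = i + 1 ∨ i = i' + 1 by omega) with rfl | rfl | rfl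
  · simpa using hE
  · exact h1
  · rwa [abs_sub_comm]

theorem fl_near {a : ℝ} (ha : |a| ≤ 1) (k : ℝ) : |((⌊k * a⌋ : ℤ) : ℝ) - k * a| ≤ 2 ∧
    |((⌊(k + 1) * a⌋ : ℤ) : ℝ) - k * a| ≤ 2 ∧ |((⌊(k + 1) * a⌋ : ℤ) : ℝ) - ⌊k * a⌋| < 2 := by
  have a1 := Int.floor_le (k * a)
  have a2 := Int.lt_floor_add_one (k * a)
  have a3 := Int.floor_le ((k + 1) * a)
  have a4 := Int.lt_floor_add_one ((k + 1) * a)
  rw [abs_le] at ha
  simp only [abs_le, abs_lt]
  refine ⟨⟨?_, ?_⟩, ⟨?_, ?_⟩, ?_, ?_⟩ <;> linarith [ha.1, ha.2]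

theorem path {F : ℤ → ℤ → ℝ} {a b E : ℝ} (ha : |a| ≤ 1) (hb : |b| ≤ 1) (hE : 0 ≤ E) (n : ℕ)
    (H : ∀ (i j : ℤ) (k : ℝ), 0 ≤ k → k ≤ n → |i - k * a| ≤ 2 → |j - k * b| ≤ 2 →
      |F (i + 1) j - F i j| ≤ E ∧ |F i (j + 1) - F i j| ≤ E) :
    |F ⌊n * a⌋ ⌊n * b⌋ - F 0 0| ≤ n * (2 * E) := by
  induction n with
  | zero => simp
  | succ n ih =>
    have n0 : (0 : ℝ) ≤ n := Nat.cast_nonneg n
    push_cast at H ⊢
    have h1 := ih fun i j k k0 k1 => H i j k k0 (by linarith)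
    obtain ⟨a1, a2, a3⟩ := fl_near ha n
    obtain ⟨b1, b2, b3⟩ := fl_near hb n
    have h2 := one_step (G := fun i => F i ⌊n * b⌋) hE a3 (H _ _ n n0 (by linarith) a1 b1).1
      (H _ _ n n0 (by linarith) a2 b1).1
    have h3 := one_step (G := fun j => F ⌊(n + 1) * a⌋ j) hE b3 (H _ _ n n0 (by linarith) a2 b1).2
      (H _ _ n n0 (by linarith) a2 b2).2
    rw [abs_le] at h1 h2 h3 ⊢
    constructor <;> linarith [h1.1, h1.2, h2.1, h2.2, h3.1, h3.2]

/-- A function that vanishes on the outer sites is small near them. -/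
theorem low : ∃ P : ℕ, 1 ≤ P ∧ ∀ out ν, Ou out ν → ∀ (y : ℤ × ℤ) (ρ s : ℕ) ω (S : ℝ), out y →
    Pos out ν y ρ ω → (∀ v, zd v y ≤ ρ → ω v ≤ S) → 1 ≤ s → P * s ≤ ρ → ∀ v, zd v 0 ≤ s →
      ω (y + v) ≤ S / 2 := by
  obtain ⟨C, β, hC, b0, -, H⟩ := An1.decay 15
  obtain ⟨P, hP⟩ := exists_nat_one_div_lt (show 0 < (2 * C)⁻¹ ^ β⁻¹ by positivity)
  refine ⟨P + 1, by omega, fun out ν ho y ρ s ω S hy hω hS hs hρ v hv => ?_⟩
  have S0 : 0 ≤ S := (hω.nn y).trans (hS y (by rw [zd_self]; omega))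
  have sρ : s ≤ ρ := le_trans (Nat.le_mul_of_pos_left s (by omega)) hρ
  have a1 := H ρ (fun v => ω (y + v)) S (fun v hv hp => ⟨fun a => ω (y + v + st4 a) - ω (y + v),
      (hω.har.harm _ (by rwa [zd_add]) fun k => hp.ne' (hω.har.zero _ (by rw [zd_add]; omega) k)).ge,
      fun a => Or.inl (by simp only [add_assoc, le_refl])⟩) S0 (fun t _ => ?_)
    (fun v hv => hS _ (by rwa [zd_add])) s hs v hv sρ
  · have ρ0 : (0 : ℝ) < ρ := by exact_mod_cast (by omega : 0 < ρ)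
    have a2 : (s : ℝ) / ρ ≤ 1 / (P + 1) := by
      rw [div_le_div_iff₀ ρ0 (by positivity), one_mul, mul_comm]
      exact_mod_cast hρ
    have a3 := Real.rpow_le_rpow (by positivity) (a2.trans hP.le) b0.le
    rw [Real.rpow_inv_rpow (by positivity) b0.ne'] at a3
    refine a1.trans ((mul_le_mul_of_nonneg_left a3 (by positivity)).trans_eq ?_)
    field_simp
  · have t0 : (0 : ℝ) ≤ t := Nat.cast_nonneg t
    have T1 := nr_fl ν (14 * (t + 1))
    refine ⟨-fl ν (14 * (t + 1)), ?_, fun v hv hv' => ?_⟩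
    · have := T1.zd_le ho.nrm (by positivity) (n := 15 * (t + 1)) (by push_cast; linarith)
      simpa [zd] using this
    · have a1 := (T1.sub (v := 0) (n := 0) (by simp [zd]) hv').cn ho.nrm (by push_cast; linarith)
      exact (hω.har.zero _ (by rw [zd_add]; omega) (ho.up _ _ a1 (by simpa using hy))).le

theorem nums {P s m : ℕ} (hP : 1 ≤ P) (hm : 1 ≤ m) (h1 : (100 * P + 2000) * m ≤ s)
    (h2 : (100 * P + 2000) * (100 * P + 2000) ≤ s) : ∃ σ n : ℕ, P * (σ + 1) ≤ 3 * s ∧ σ ≤ s ∧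
      m ≤ s / (100 * P + 2000) ∧ 25 ≤ s / (100 * P + 2000) ∧ 100 * (s / (100 * P + 2000)) ≤ σ ∧
      230 * s ≤ m * n ∧ m * n ≤ 231 * s := by
  have a1 : m ≤ s / (100 * P + 2000) := (Nat.le_div_iff_mul_le (by omega)).2 (by rwa [mul_comm])
  have a2 : 100 * P + 2000 ≤ s / (100 * P + 2000) := (Nat.le_div_iff_mul_le (by omega)).2 h2
  have a3 := Nat.div_mul_le_self s (100 * P + 2000)
  have a4 := Nat.mul_div_le s P
  have a5 := Nat.div_le_self s (100 * P + 2000)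
  have a6 := Nat.mul_div_le (230 * s) m
  have a7 := Nat.lt_mul_div_succ (230 * s) hm
  refine ⟨s / P, 230 * s / m + 1, by rw [mul_add]; omega, Nat.div_le_self _ _, a1, by omega,
    (Nat.le_div_iff_mul_le hP).2 ?_, a7.le, by rw [mul_add]; omega⟩
  generalize s / (100 * P + 2000) = d at a3
  nlinarith

theorem slpL : SlpL := by
  obtain ⟨P, hP, H⟩ := low
  refine ⟨100 * P + 2000, by omega, fun out ν ho y s m ω hm h1 h2 hy hω => ?_⟩
  obtain ⟨σ, n, e1, e2, e3, e4, e5, e6, e7⟩ := nums hP hm h1 h2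
  have C0 : 2000 ≤ 100 * P + 2000 := Nat.le_add_left _ _
  have C2 := Nat.div_le_self s (100 * P + 2000)
  generalize 100 * P + 2000 = C at *
  generalize s / C = d at *
  have C1 : (2000 : ℝ) ≤ C := by exact_mod_cast C0
  obtain ⟨x₀, x1, x2⟩ := hy.2
  obtain ⟨n1, n2⟩ := re_le ho.nrm
  have r1 : (σ : ℝ) ≤ s := by exact_mod_cast e2
  have r2 : (m : ℝ) ≤ d := by exact_mod_cast e3
  have r3 : (25 : ℝ) ≤ d := by exact_mod_cast e4
  have r4 : (100 : ℝ) * d ≤ σ := by exact_mod_cast e5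
  have r5 : (230 : ℝ) * s ≤ m * n := by exact_mod_cast e6
  have r6 : (m : ℝ) * n ≤ 231 * s := by exact_mod_cast e7
  have m0 : (0 : ℝ) < m := by exact_mod_cast hm
  have r7 : 2000 * (s : ℝ) ≤ C * s := mul_le_mul_of_nonneg_right C1 (by positivity)
  obtain ⟨p, hp⟩ : ∃ p : ℤ → ℤ → ℤ × ℤ, ∀ i j, p i j = fl ν σ + (m * i, m * j) :=
    ⟨_, fun _ _ => rfl⟩
  have nr : ∀ (i j : ℤ) (k : ℝ), |i - k * ν.re| ≤ 2 → |j - k * ν.im| ≤ 2 →
      Nr ν (σ + m * k) (1 + m * 2) (p i j) := fun i j k hi hj => by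
    obtain ⟨a1, a2⟩ := nr_fl ν σ
    have a3 := mul_le_mul_of_nonneg_left hi m0.le
    have a4 := mul_le_mul_of_nonneg_left hj m0.le
    rw [← abs_of_pos m0, ← abs_mul, abs_of_pos m0] at a3 a4
    rw [hp]
    constructor <;> simp only [Prod.fst_add, Prod.snd_add, Int.cast_add, Int.cast_mul,
      Int.cast_natCast]
    · exact le_of_eq_of_le (congrArg _ (by ring)) ((abs_add_le _ _).trans (add_le_add a1 a3))
    · exact le_of_eq_of_le (congrArg _ (by ring)) ((abs_add_le _ _).trans (add_le_add a2 a4))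
  have top : ∀ v, zd v y ≤ 3 * s → ω v ≤ ω (y + p ⌊n * ν.re⌋ ⌊n * ν.im⌋) := fun v hv => by
    have := hω.mono v _ (((nr _ _ n (fl_near n1 n).1 (fl_near n2 n).1).sub (zd_self _).le hv).nar
      ho.nrm (by push_cast; linarith))
    rwa [add_sub_cancel] at this
  have lo : ω (y + p 0 0) ≤ ω (y + p ⌊n * ν.re⌋ ⌊n * ν.im⌋) / 2 := by
    have k : 3 * s ≤ C * s := by exact_mod_cast (show (3 : ℝ) * s ≤ C * s by linarith)
    refine H out ν ho y (3 * s) (σ + 1) ω _ hy.1 ⟨⟨fun x hx => hω.har.zero x (by omega),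
      fun x hx => hω.har.harm x (by omega)⟩, hω.nn, hω.mono⟩ top (by omega) e1 _ ?_
    have k' := (nr_fl ν σ).zd_le ho.nrm (by positivity) (n := σ + 1) (by push_cast; linarith)
    rwa [hp, mul_zero, Prod.mk_zero_zero, add_zero]
  have pa := path (F := fun i j => ω (y + p i j)) n1 n2
    (E := ω (y + p ⌊n * ν.re⌋ ⌊n * ν.im⌋) * m / (C * s))
    (div_nonneg (mul_nonneg (hω.nn _) m0.le) (by positivity)) n
  generalize ω (y + p ⌊n * ν.re⌋ ⌊n * ν.im⌋) = W at top lo pa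
  by_contra hc
  push Not at hc
  have Cs : (0 : ℝ) < C * s := by linarith
  have st : ∀ (i j : ℤ) (k : ℝ), 0 ≤ k → k ≤ n → |i - k * ν.re| ≤ 2 → |j - k * ν.im| ≤ 2 →
      |ω (y + p (i + 1) j) - ω (y + p i j)| + |ω (y + p i (j + 1)) - ω (y + p i j)| <
        W * m / (C * s) := fun i j k k0 k1 hi hj => by
    have a1 := nr i j k hi hj
    have a2 := mul_le_mul_of_nonneg_left k1 m0.le
    have a3 := mul_nonneg m0.le k0
    obtain ⟨v, v1, v2⟩ := hc (y + p i j) (by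
      rw [zd_add]
      exact a1.zd_le ho.nrm (by linarith) (by push_cast; linarith))
      fun v hv => inn ho x2 ((a1.sub hv x1).cn ho.nrm (by push_cast; linarith))
    have b1 : y + p i j + m • cn 1 = y + p (i + 1) j := by
      rw [hp, hp]
      ext <;> simp [cn]
      ring
    have b2 : y + p i j + m • cn 3 = y + p i (j + 1) := by
      rw [hp, hp]
      ext <;> simp [cn]
      ring
    rw [b1, b2] at v2
    rw [lt_div_iff₀' Cs]
    exact v2.trans_le (mul_le_mul_of_nonneg_right (top v v1) m0.le)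
  have a1 := (abs_le.1 (pa fun i j k k0 k1 hi hj => by
    have := st i j k k0 k1 hi hj
    exact ⟨by linarith [abs_nonneg (ω (y + p i (j + 1)) - ω (y + p i j))],
      by linarith [abs_nonneg (ω (y + p (i + 1) j) - ω (y + p i j))]⟩)).2
  have a2 : 0 < W * m / (C * s) := lt_of_le_of_lt (by positivity)
    (st 0 0 0 le_rfl (by positivity) (by simp) (by simp))
  have W0 : 0 < W := by
    rwa [div_pos_iff_of_pos_right Cs, mul_pos_iff_of_pos_right m0] at a2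
  have a3 : n * (2 * (W * m / (C * s))) ≤ W / 4 := by
    rw [← mul_div_assoc, ← mul_div_assoc, div_le_iff₀ Cs]
    nlinarith [mul_le_mul_of_nonneg_left r6 W0.le, mul_le_mul_of_nonneg_left r7 W0.le]
  linarith

end Vale.Agent.P144L.D
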