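import Vale.Agent.P144L.D.Chn
import Vale.Agent.P144L.Defs2

/-!
Deep points and the size of the boundary above a Lipschitz graph.
-/

namespace Vale.Agent.P144L.D

open Finset Vale.Agent.P144Z GeoA

/-- Two orthogonal unit vectors. -/
def Un (e e' : ℤ × ℤ) : Prop :=
  ((e = (1, 0) ∨ e = (-1, 0)) ∧ (e' = (0, 1) ∨ e' = (0, -1))) ∨
    ((e = (0, 1) ∨ e = (0, -1)) ∧ (e' = (1, 0) ∨ e' = (-1, 0)))

/-- The octant between `e` and `e + e'`. -/
def Oc (e e' c : ℤ × ℤ) : Prop :=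
  0 ≤ e'.1 * c.1 + e'.2 * c.2 ∧ e'.1 * c.1 + e'.2 * c.2 ≤ e.1 * c.1 + e.2 * c.2

theorem oct_aux {x y p q : ℝ} (h : p ^ 2 + q ^ 2 = 1) (q0 : 0 ≤ q) (qp : q ≤ p) (y0 : 0 ≤ y)
    (yx : y ≤ x) : √2 / 2 * √(x ^ 2 + y ^ 2) ≤ x * p + y * q := by
  have p0 : 0 ≤ p := q0.trans qp
  have x0 : 0 ≤ x := y0.trans yx
  refine abs_le_of_sq_le_sq' ?_ (by positivity) |>.2
  rw [mul_pow, div_pow, Real.sq_sqrt (by norm_num), Real.sq_sqrt (by positivity)]
  have a1 := mul_nonneg (sub_nonneg.2 (pow_le_pow_left₀ y0 yx 2))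
    (sub_nonneg.2 (pow_le_pow_left₀ q0 qp 2))
  have a2 : 0 ≤ x * y * (p * q) := by positivity
  have a3 : x ^ 2 + y ^ 2 = (x ^ 2 + y ^ 2) * (p ^ 2 + q ^ 2) := by rw [h, mul_one]
  nlinarith

/-- The cone contains an octant. -/
theorem oct {ν : ℂ} (hν : ‖ν‖ = 1) : ∃ e e', Un e e' ∧ ∀ c, Oc e e' c → Cn ν c := by
  have h := sq_add hν
  obtain ⟨a, ha, ha'⟩ : ∃ a : ℤ, (a = 1 ∨ a = -1) ∧ 0 ≤ a * ν.re := by
    rcases le_total 0 ν.re with k | k
    · exact ⟨1, Or.inl rfl, by simpa using k⟩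
    · exact ⟨-1, Or.inr rfl, by simpa using k⟩
  obtain ⟨b, hb, hb'⟩ : ∃ b : ℤ, (b = 1 ∨ b = -1) ∧ 0 ≤ b * ν.im := by
    rcases le_total 0 ν.im with k | k
    · exact ⟨1, Or.inl rfl, by simpa using k⟩
    · exact ⟨-1, Or.inr rfl, by simpa using k⟩
  have a2 : (a : ℝ) ^ 2 = 1 := by rcases ha with rfl | rfl <;> simp
  have b2 : (b : ℝ) ^ 2 = 1 := by rcases hb with rfl | rfl <;> simp
  rcases le_total (b * ν.im) (a * ν.re) with k | k
  · refine ⟨(a, 0), (0, b), Or.inl ⟨by simpa using ha, by simpa using hb⟩, fun c hc => ?_⟩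
    simp only [Oc, zero_mul, zero_add, add_zero] at hc
    have := oct_aux (x := a * c.1) (y := b * c.2) (by rw [mul_pow, mul_pow, a2, b2]; linarith) hb' k
      (by exact_mod_cast hc.1) (by exact_mod_cast hc.2)
    rw [mul_pow, mul_pow, a2, b2, one_mul, one_mul] at this
    refine this.trans_eq ?_
    unfold ht
    linear_combination c.1 * ν.re * a2 + c.2 * ν.im * b2
  · refine ⟨(0, b), (a, 0), Or.inr ⟨by simpa using hb, by simpa using ha⟩, fun c hc => ?_⟩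
    simp only [Oc, zero_mul, zero_add, add_zero] at hc
    have := oct_aux (x := b * c.2) (y := a * c.1) (by rw [mul_pow, mul_pow, a2, b2]; linarith) ha' k
      (by exact_mod_cast hc.1) (by exact_mod_cast hc.2)
    rw [mul_pow, mul_pow, a2, b2, one_mul, one_mul, add_comm] at this
    refine this.trans_eq ?_
    unfold ht
    linear_combination c.1 * ν.re * a2 + c.2 * ν.im * b2

theorem Un.neg {e e' : ℤ × ℤ} (h : Un e e') : Un (-e) (-e') := by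
  rcases h with ⟨rfl | rfl, rfl | rfl⟩ | ⟨rfl | rfl, rfl | rfl⟩ <;> simp [Un]

theorem oc_neg {e e' u w : ℤ × ℤ} (h : Oc (-e) (-e') (w - u)) : Oc e e' (u - w) := by
  simp only [Oc, Prod.fst_neg, Prod.snd_neg, Prod.fst_sub, Prod.snd_sub] at h ⊢
  constructor <;> linarith [h.1, h.2]

theorem rch_line {G : ℤ × ℤ → Prop} {v e : ℤ × ℤ}
    (he : e = (1, 0) ∨ e = (0, 1) ∨ e = (-1, 0) ∨ e = (0, -1)) (n : ℕ)
    (h : ∀ k : ℕ, k ≤ n → G (v + (k : ℤ) • e)) : Rch G v (v + (n : ℤ) • e) := by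
  induction n with
  | zero =>
    rw [Nat.cast_zero, zero_smul, add_zero]
    exact Relation.ReflTransGen.refl
  | succ n ih =>
    refine Relation.ReflTransGen.tail (ih fun k hk => h k (by omega))
      ⟨h n (by omega), h _ le_rfl, ?_⟩
    rw [Nat.cast_succ, add_smul, one_smul, ← add_assoc]
    rcases he with rfl | rfl | rfl | rfl <;> simp

/-- A set that is stable along an octant is locally connected. -/
theorem rch_oc {G : ℤ × ℤ → Prop} {e e' p p' : ℤ × ℤ} {s : ℕ} (he : Un e e')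
    (h : ∀ u w, zd u p ≤ s → zd w p ≤ 5 * s → G u → Oc e e' (w - u) → G w) (hp : G p) (hp' : G p')
    (hpp : zd p' p ≤ s) : Rch G p p' := by
  have move : ∀ q, G q → zd q p ≤ s →
      Rch G q (q + ((4 * s : ℕ) : ℤ) • e + ((2 * s : ℕ) : ℤ) • e') := fun q hq hq' => by
    refine (rch_line ?_ _ fun k hk => h q _ hq' ?_ hq ?_).trans
      (rch_line ?_ _ fun k hk => h q _ hq' ?_ hq ?_) <;>
    rcases he with ⟨rfl | rfl, rfl | rfl⟩ | ⟨rfl | rfl, rfl | rfl⟩ <;>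
      simp [zd, Oc] at hq' ⊢ <;> omega
  refine (move p hp (by rw [zd_self]; omega)).trans ((move p' hp' hpp).trans
    (rch_box (D := s) (fun x hx => h p x (by rw [zd_self]; omega) ?_ hp ?_) ?_)).symm
  · rcases he with ⟨rfl | rfl, rfl | rfl⟩ | ⟨rfl | rfl, rfl | rfl⟩ <;> simp [zd] at hx ⊢ <;> omega
  · rcases he with ⟨rfl | rfl, rfl | rfl⟩ | ⟨rfl | rfl, rfl | rfl⟩ <;>
      simp [zd, Oc] at hx ⊢ <;> omega
  · simpa [zd] using hpp

theorem exists_oc {Λ : Finset (ℤ × ℤ)} {r : ℕ} (h : LipZ (√2 / 2) Λ r) (z : ℤ × ℤ) :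
    ∃ e e', Un e e' ∧ ∀ u w, zd u z ≤ r → zd w z ≤ r → u ∈ Λ → Oc e e' (w - u) → w ∈ Λ := by
  obtain ⟨S, ν, n1, n2, hS⟩ := h z
  obtain ⟨e, e', he, hc⟩ := oct n1
  refine ⟨e, e', he, fun u w hu hw k1 k2 => ?_⟩
  have a1 := (hS (u - z) (by simpa [zd] using hu)).1 (by simpa using k1)
  have a2 := (hS (w - z) (by simpa [zd] using hw)).2 (by simpa using n2 _ a1 _ (hc _ k2))
  simpa using a2

theorem deepL : DeepL := by
  refine ⟨6, 1, le_rfl, fun Λ r h _ => ?_⟩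
  rw [Nat.div_one]
  refine ⟨fun d hd hr u hu => ?_, fun d s hd hs hr p p' hp hp' hpp => ?_,
    fun s hs hr f f' hf hf' hff => ?_⟩
  · obtain ⟨e, e', he, key⟩ := exists_oc h u
    refine ⟨u + ((4 * d : ℕ) : ℤ) • e + ((2 * d : ℕ) : ℤ) • e', ?_, fun v hv =>
      key u v (by rw [zd_self]; omega) ?_ hu ?_⟩
    · rcases he with ⟨rfl | rfl, rfl | rfl⟩ | ⟨rfl | rfl, rfl | rfl⟩ <;> simp [zd] <;> omega
    · rcases he with ⟨rfl | rfl, rfl | rfl⟩ | ⟨rfl | rfl, rfl | rfl⟩ <;> simp [zd] at hv ⊢ <;> omega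
    · rcases he with ⟨rfl | rfl, rfl | rfl⟩ | ⟨rfl | rfl, rfl | rfl⟩ <;>
        simp [zd, Oc] at hv ⊢ <;> omega
  · obtain ⟨e, e', he, key⟩ := exists_oc h p
    refine rch_oc (s := s) he (fun u w hu hw k1 k2 v hv => ?_) (fun v hv => hp v (by omega))
      (fun v hv => hp' v (by omega)) (by rwa [zd_comm])
    have a1 : zd (v - (w - u)) u = zd v w := by
      simp only [zd, Prod.fst_sub, Prod.snd_sub]
      omega
    have a2 := zd_tri (v - (w - u)) u p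
    have a3 := zd_tri v w p
    exact key (v - (w - u)) v (by omega) (by omega) (k1 _ (by omega)) (by rwa [sub_sub_cancel])
  · obtain ⟨e, e', he, key⟩ := exists_oc h f
    exact rch_oc (s := s) he.neg
      (fun u w hu hw k1 k2 k3 => k1 (key w u (by omega) (by omega) k3 (oc_neg k2)))
      hf hf' (by rwa [zd_comm])

theorem div_eq {a b s : ℤ} (hs : 0 < s) (h : a / s = b / s) : a - b ≤ s ∧ b - a ≤ s := by
  have a1 := Int.emod_add_mul_ediv a s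
  have a2 := Int.emod_add_mul_ediv b s
  have a3 := Int.emod_nonneg a hs.ne'
  have a4 := Int.emod_nonneg b hs.ne'
  have a5 := Int.emod_lt_of_pos a hs
  have a6 := Int.emod_lt_of_pos b hs
  rw [h] at a1
  omega

theorem div_near {a b s : ℤ} (hs : 0 < s) (h1 : a ≤ b + 7 * s) (h2 : b ≤ a + 7 * s)
    (h : a / s % 16 = b / s % 16) : a - b ≤ s ∧ b - a ≤ s := by
  have a1 := Int.ediv_le_ediv hs h1
  have a2 := Int.ediv_le_ediv hs h2
  rw [Int.add_mul_ediv_right _ _ hs.ne'] at a1 a2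
  exact div_eq hs (by omega)

theorem close {e e' v v' δ δ' : ℤ × ℤ} {s : ℤ} (he : Un e e') (hs : 0 < s) (d1 : zd δ 0 ≤ 1)
    (d2 : ¬ Oc e e' (v' - (v + δ))) (d3 : zd δ' 0 ≤ 1) (d4 : ¬ Oc e e' (v - (v' + δ')))
    (a1 : e.1 * v'.1 + e.2 * v'.2 - 2 * (e'.1 * v'.1 + e'.2 * v'.2) -
      (e.1 * v.1 + e.2 * v.2 - 2 * (e'.1 * v.1 + e'.2 * v.2)) ≤ s)
    (a2 : e.1 * v.1 + e.2 * v.2 - 2 * (e'.1 * v.1 + e'.2 * v.2) -
      (e.1 * v'.1 + e.2 * v'.2 - 2 * (e'.1 * v'.1 + e'.2 * v'.2)) ≤ s) :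
    (v'.1 ≤ v.1 + 7 * s ∧ v.1 ≤ v'.1 + 7 * s) ∧ v'.2 ≤ v.2 + 7 * s ∧ v.2 ≤ v'.2 + 7 * s := by
  rw [B1a1.zd_zero_le] at d1 d3
  simp only [Oc, Prod.fst_sub, Prod.snd_sub, Prod.fst_add, Prod.snd_add, not_and_or, not_le]
    at d2 d4
  rcases he with ⟨rfl | rfl, rfl | rfl⟩ | ⟨rfl | rfl, rfl | rfl⟩ <;>
    simp only at a1 a2 d2 d4 <;> omega

theorem cntA : CntA := by
  refine ⟨7 * 256, fun M _ I r z h hM ρ s m Z hs hρ hZ hm => ?_⟩
  obtain ⟨S, ν, n1, n2, hS⟩ := h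
  obtain ⟨e, e', he, hc⟩ := oct n1
  have s0 : (0 : ℤ) < s := by exact_mod_cast hs
  have sep : ∀ y ∈ Z, ∀ y' ∈ Z, ∃ δ : ℤ × ℤ, zd δ 0 ≤ 1 ∧
      ¬ Oc e e' (lft (y' - z) - (lft (y - z) + δ)) := fun y hy y' hy' => by
    obtain ⟨⟨-, ⟨f, f1, f2⟩, -⟩, y2⟩ := hZ y hy
    obtain ⟨⟨y3, -⟩, y4⟩ := hZ y' hy'
    refine ⟨lft (f - y), (zd_lft f y).trans_le f2, fun k => y3 ?_⟩
    have a1 := B1b.zd_add (lft (y - z)) (lft (f - y))
    rw [zd_lft, zd_lft] at a1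
    have a2 := (hS (lft (y - z) + lft (f - y)) (by omega)).1
      (by rwa [G.prj_add, ← add_assoc, G.add_prj_lft, G.add_prj_lft])
    have a3 := (hS (lft (y' - z)) (by rw [zd_lft]; omega)).2 (by simpa using n2 _ a2 _ (hc _ k))
    rwa [G.add_prj_lft] at a3
  obtain ⟨τ, hτ⟩ : ∃ τ : ℤ × ℤ → ℤ, ∀ v,
      τ v = e.1 * v.1 + e.2 * v.2 - 2 * (e'.1 * v.1 + e'.2 * v.2) := ⟨_, fun _ => rfl⟩
  obtain ⟨K, hK⟩ : ∃ K, K = ρ / s + 1 := ⟨_, rfl⟩
  have K1 : (ρ : ℤ) ≤ K * s := by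
    have := Nat.lt_mul_div_succ ρ hs
    rw [← hK, mul_comm] at this
    exact_mod_cast this.le
  rw [← hK]
  refine (card_le_mul_card_image_of_maps_to
    (f := fun y => (τ (lft (y - z)) / s, (lft (y - z)).1 / s % 16, (lft (y - z)).2 / s % 16))
    (t := Icc (-(3 * K : ℤ)) (3 * K) ×ˢ Ico (0 : ℤ) 16 ×ˢ Ico (0 : ℤ) 16) (fun y hy => ?_) m
    fun b _ => ?_).trans ?_
  · have a1 := (zd_lft y z).trans_le (hZ y hy).2
    generalize lft (y - z) = v at a1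
    have a2 : -(3 * ρ : ℤ) ≤ τ v ∧ τ v ≤ 3 * ρ := by
      rw [hτ]
      rcases he with ⟨rfl | rfl, rfl | rfl⟩ | ⟨rfl | rfl, rfl | rfl⟩ <;> simp [zd] at a1 ⊢ <;> omega
    simp only [mem_product, mem_Icc, mem_Ico]
    exact ⟨⟨Int.le_ediv_of_mul_le s0 (by linarith [a2.1]),
      Int.ediv_le_of_le_mul s0 (by linarith [a2.2])⟩, by omega, by omega⟩
  · rcases (Z.filter fun y => (τ (lft (y - z)) / s, (lft (y - z)).1 / s % 16,
      (lft (y - z)).2 / s % 16) = b).eq_empty_or_nonempty with k | ⟨y, k⟩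
    · rw [k]
      exact Nat.zero_le _
    refine le_trans (card_le_card fun y' k' => ?_) (hm y)
    rw [mem_filter] at k k' ⊢
    refine ⟨k'.1, ?_⟩
    have a0 := k'.2.trans k.2.symm
    simp only [Prod.mk.injEq] at a0
    obtain ⟨δ, d1, d2⟩ := sep y k.1 y' k'.1
    obtain ⟨δ', d3, d4⟩ := sep y' k'.1 y k.1
    have a1 := div_eq s0 a0.1
    have a2 := G.tdist_add_prj_le' z (lft (y' - z)) (lft (y - z))
    rw [G.add_prj_lft, G.add_prj_lft] at a2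
    generalize lft (y - z) = v at *
    generalize lft (y' - z) = v' at *
    rw [hτ, hτ] at a1
    have a3 := close he s0 d1 d2 d3 d4 a1.1 a1.2
    have a4 := div_near s0 a3.1.1 a3.1.2 a0.2.1
    have a5 := div_near s0 a3.2.1 a3.2.2 a0.2.2
    omega
  · have K2 : 1 ≤ K := hK ▸ Nat.le_add_left _ _
    simp only [card_product, Int.card_Icc, Int.card_Ico]
    have a1 : ((3 * K : ℤ) + 1 - -(3 * K)).toNat ≤ 7 * K := by omega
    have a2 := Nat.mul_le_mul_left m (Nat.mul_le_mul_right (16 * 16) a1)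
    exact a2.trans_eq (by ring)

theorem cntL : CntL := cntA.imp fun _ h M _ I r hI hM z => h M I r z (hI z) hM

end Vale.Agent.P144L.D
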